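import Crest.Agent.X212.Ixc71.Sd
import Crest.Agent.X212.Glc56.Main

/-!
# X212 / IX-CUT (helper71): excision along a neck
-/

set_option autoImplicit false
set_option linter.unusedSectionVars false
noncomputable section
open scoped Manifold ContDiff Topology InnerProductSpace
open MeasureTheory Set Function Filter

namespace Crest.Agent.X212.Ixc71
open An M Cyf70 Nd18 Pj41 Cht98 Sob92

variable {κ lam : Type} [Fintype κ] [Fintype lam] {X : XD κ lam} {Z₁ Z₃ Z₄ : Mf 4}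
  {b₁ : BG κ lam Z₁} {b₃ : BG κ lam Z₃} {b₄ : BG κ lam Z₄} (g : GC X b₁ b₃ b₄)

/-- the lower side -/
abbrev d₃ : Sd X b₃ := ⟨g.a₃, g.K₃, true, g.s₃, g.e₃, fun t (h : g.s₃ - 1 < 1 * t) =>
  g.J₃ (show g.s₃ - 1 < t by linarith)⟩

/-- the upper side -/
abbrev d₄ : Sd X b₄ := ⟨g.a₄, g.K₄, false, g.s₄, g.e₄, fun t (h : g.s₄ - 1 < -1 * t) =>
  g.J₄ (show t < 1 - g.s₄ by linarith)⟩

theorem both {x : Z₁.M} (h₃ : x ∈ g.p₃.φ.source) (h₄ : x ∈ g.p₄.φ.source) : ∃ y t, |t| < 1 ∧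
    g.p₃.φ x = g.K₃.ψ (y, g.s₃ + t) ∧ g.p₄.φ x = g.K₄.ψ (y, t - g.s₄) ∧
    (d₃ g).h (g.p₃.φ x) = t ∧ (d₄ g).h (g.p₄.φ x) = -t := by
  obtain ⟨y, t, h, e⟩ := Glc56.band g ⟨h₃, h₄⟩
  have e' := (g.jj x h₃ y t h e).1
  refine ⟨y, t, h, e, e', ?_, ?_⟩
  · rw [e]; exact ((d₃ g).h_ψ (z := (y, _)) (Glc56.ht₃ g h)).trans (by simp [sg])
  · rw [e']; exact ((d₄ g).h_ψ (z := (y, _)) (Glc56.ht₄ g h)).trans (by simp [sg])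

theorem ex_band (y : X.Y.M) {t : ℝ} (h : |t| < 1) :
    ∃ x ∈ g.p₃.φ.source ∩ g.p₄.φ.source, g.p₃.φ x = g.K₃.ψ (y, g.s₃ + t) :=
  g.band.ge ⟨(y, g.s₃ + t),
    ⟨trivial, by linarith [(abs_lt.1 h).1], by linarith [(abs_lt.1 h).2]⟩, rfl⟩

theorem pr₃ : Pr (d₃ g) (d₄ g) g.p₃ g.p₄ where
  cov x hx k := (g.cov.ge hx).resolve_left k
  tg x hx k := g.t₃.ge ⟨hx, by
    rintro ⟨z, hz, rfl⟩
    have : g.s₃ + 1 ≤ z.2 := hz.2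
    rw [(d₃ g).h_ψ (show g.s₃ - 1 < 1 * z.2 by linarith)] at k
    exact absurd (show 1 * z.2 - g.s₃ < 1 from k) (by linarith)⟩
  lo x hx k := by
    obtain ⟨⟨y, t⟩, h1, e⟩ := (d₄ g).mem_U'.2 k
    have h2 : g.s₄ - 1 < -1 * t := h1.2
    have h3 : -g.s₄ - 1 < t := not_le.1 fun h => (g.t₄.le (g.p₄.φ.map_source hx)).2
      ⟨(y, t), ⟨trivial, h⟩, e⟩
    have h4 : |t + g.s₄| < 1 := abs_lt.2 ⟨by linarith, by linarith⟩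
    obtain ⟨x', h5, e'⟩ := ex_band g y h4
    have := (g.jj x' h5.1 y _ h4 e').1
    rw [add_sub_cancel_right] at this
    exact g.p₄.φ.injOn h5.2 hx (this.trans e) ▸ h5.1
  neg x h₃ h₄ := by
    obtain ⟨_, _, -, -, -, e, e'⟩ := both g h₃ h₄
    rw [e, e', neg_neg]
  mt a := by
    have := g.mt a
    rcases h : g.f a with a' | a' <;> rw [h] at this
    exacts [.inl ⟨_, a'.2, this⟩, .inr ⟨_, a'.2, this⟩]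
  mt' a ha := ⟨_, by simpa using g.mt (g.f.symm (.inl ⟨a, ha⟩))⟩

theorem pr₄ : Pr (d₄ g) (d₃ g) g.p₄ g.p₃ where
  cov x hx k := (g.cov.ge hx).resolve_right k
  tg x hx k := g.t₄.ge ⟨hx, by
    rintro ⟨z, hz, rfl⟩
    have : z.2 ≤ -g.s₄ - 1 := hz.2
    rw [(d₄ g).h_ψ (show g.s₄ - 1 < -1 * z.2 by linarith)] at k
    exact absurd (show -1 * z.2 - g.s₄ < 1 from k) (by linarith)⟩
  lo x hx k := by
    obtain ⟨⟨y, t⟩, h1, e⟩ := (d₃ g).mem_U'.2 k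
    have h2 : g.s₃ - 1 < 1 * t := h1.2
    have h3 : t < g.s₃ + 1 := not_le.1 fun h => (g.t₃.le (g.p₃.φ.map_source hx)).2
      ⟨(y, t), ⟨trivial, h⟩, e⟩
    obtain ⟨x', h5, e'⟩ := ex_band g y (t := t - g.s₃) (abs_lt.2 ⟨by linarith, by linarith⟩)
    rw [add_sub_cancel] at e'
    exact g.p₃.φ.injOn h5.1 hx (e'.trans e) ▸ h5.2
  neg x h₄ h₃ := by
    obtain ⟨_, _, -, -, -, e, e'⟩ := both g h₃ h₄
    rw [e, e']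
  mt a := (pr₃ g).mt a |>.symm
  mt' a ha := ⟨_, by simpa using g.mt (g.f.symm (.inr ⟨a, ha⟩))⟩

theorem Pr.sq {Z Z' : Mf 4} {b : BG κ lam Z} {b' : BG κ lam Z'} {d : Sd X b} {d' : Sd X b'}
    {p : GP b₁ b} {p' : GP b₁ b'} (h : Pr d d' p p') (h' : Pr d' d p' p) {x : Z₁.M}
    (hx : x ∈ p.φ.source) : pull p.φ d.g x ^ 2 + pull p'.φ d'.g x ^ 2 = 1 := by
  rw [pull_g hx]
  by_cases k : x ∈ p'.φ.source
  · rw [pull_g k, ← h.neg x hx k, S_sq]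
  · rw [pull_of_notMem k, S_one (by linarith [not_lt.1 fun e => k (h'.lo x hx e)])]
    simp

theorem Sd.sq {Z : Mf 4} {b : BG κ lam Z} (d : Sd X b) {x : Z.M} (hx : x ∈ b.O) :
    d.g x ^ 2 + S (d.h x) ^ 2 = 1 := by rw [Sd.g, indicator_of_mem hx, S_sq]

/-- **IX-CUT** -/
theorem cut {k : ℕ} (hR : RotStmt κ lam k) (hC : CylStmt κ lam) : CutStmt κ lam k := by
  intro X Z₁ Z₃ Z₄ b₁ b₃ b₄ g O₁ O₃ O₄ f c₁ c₃ c₄ β δ n₁ n₂ n₃ n₄ hs hc i₁ i₂ i₃ i₄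
  obtain ⟨u₃, ζ₃, u₄, ζ₄, w₃, η₃, w₄, η₄, e₃, e₄, s₃, s₄, hζ, hu⟩ := hc.ex
  refine hR _ _ _ _ _ _ _ _ _ _ _ _ _ _ _ _ ((pr₃ g).lnk hs.o₁ hs.o₃ hs.o₄ hs.p₃ e₃)
    ((d₃ g).lnkN hs.o₃ hc.a₃ s₃ hs.f₃) ((pr₄ g).lnk hs.o₁ hs.o₄ hs.o₃ hs.p₄ e₄)
    ((d₄ g).lnkN hs.o₄ hc.a₄ s₄ hs.f₄) δ _ _ _ _ hs.o₁ ((hC X ((d₃ g).ok hs.o₃)).1 f) hs.o₃ hs.o₄
    hc.a₁ s₃.adm.adm hc.a₃ hc.a₄ (fun x hx => ?_) (fun z _ => ?_) (fun x hx => (d₃ g).sq hx)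
    (fun x hx => (d₄ g).sq hx) (fun x h₃ h₄ => ?_) i₁ i₂ i₃ i₄
  · rcases g.cov.ge hx with h | h
    exacts [(pr₃ g).sq (pr₄ g) h, (add_comm _ _).trans ((pr₄ g).sq (pr₃ g) h)]
  · show S (1 * z.2) ^ 2 + S (-1 * z.2) ^ 2 = 1
    rw [one_mul, neg_one_mul, add_comm, S_sq]
  · have m₃ : x ∈ g.p₃.φ.source := by_contra fun k => h₃ (pull_of_notMem k _)
    have m₄ : x ∈ g.p₄.φ.source := by_contra fun k => h₄ (pull_of_notMem k _)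
    obtain ⟨y, t, h, e, e', t₃, t₄⟩ := both g m₃ m₄
    have q₃ : (d₃ g).s - 1 < sg (d₃ g).o * (y, g.s₃ + t).2 := Glc56.ht₃ g h
    have q₄ : (d₄ g).s - 1 < sg (d₄ g).o * (y, t - g.s₄).2 := Glc56.ht₄ g h
    have k : (d₃ g).φ (g.p₃.φ x) = (d₄ g).φ (g.p₄.φ x) := by
      rw [e, e']
      exact ((d₃ g).φ_ψ q₃).trans (.trans (by simp [sg]) ((d₄ g).φ_ψ q₄).symm)
    refine ⟨mem_of_eq_of_mem e ((d₃ g).ψ_mem q₃), mem_of_eq_of_mem e' ((d₄ g).ψ_mem q₄), k,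
      .trans ?_ (pull_g m₄).symm, .trans ?_ (pull_g m₃).symm, fun i j => ?_, ?_, hζ⟩
    · rw [t₄, neg_neg, ← t₃]; rfl
    · rw [t₃, ← t₄]; rfl
    · show ∑ l, X.D.B.P i l ((d₃ g).φ (g.p₃.φ x)) * g.p₃.U x l j =
        ∑ l, X.D.B.P i l ((d₄ g).φ (g.p₄.φ x)) * g.p₄.U x l j
      rw [k, (g.jj x m₃ y t h e).2.1]
    · show w₃ (g.K₃.ψ.symm (g.p₃.φ x)) ∘L u₃ x = w₄ (g.K₄.ψ.symm (g.p₄.φ x)) ∘L u₄ x
      rw [e, e', g.K₃.ψ.left_inv ((d₃ g).src q₃), g.K₄.ψ.left_inv ((d₄ g).src q₄)]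
      exact hu x m₃ y t h e

end Crest.Agent.X212.Ixc71
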