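import Crest.Agent.X212.Cht98.TrD
import Crest.Agent.X212.Glc56.Ep

/-!
# X212 / IX-CUT (helper71): the two links of one side of a cut
-/

set_option autoImplicit false
set_option linter.unusedSectionVars false
noncomputable section
open scoped Manifold ContDiff Topology InnerProductSpace
open MeasureTheory Set Function Filter

namespace Crest.Agent.X212.Ixc71
open An M Cyf70 Nd18 Pj41 Cht98 Sob92
open Tmp64 (AdmOn Eq0 admOn_univ)

/-- the cut-off function -/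
def S (t : ℝ) : ℝ := Real.sin (Real.pi / 2 * Real.smoothTransition (t + 1 / 2))

theorem S_sm : ContDiff ℝ ∞ S :=
  Real.contDiff_sin.comp (contDiff_const.mul
    (Real.smoothTransition.contDiff.comp (contDiff_id.add contDiff_const)))

theorem S_zero {t : ℝ} (h : t ≤ -1 / 2) : S t = 0 := by
  rw [S, Real.smoothTransition.zero_of_nonpos (by linarith), mul_zero, Real.sin_zero]

theorem S_one {t : ℝ} (h : 1 / 2 ≤ t) : S t = 1 := by
  rw [S, Real.smoothTransition.one_of_one_le (by linarith), mul_one, Real.sin_pi_div_two]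

theorem S_sq (t : ℝ) : S (-t) ^ 2 + S t ^ 2 = 1 := by
  have h : Real.smoothTransition (-t + 1 / 2) = 1 - Real.smoothTransition (t + 1 / 2) := by
    have := (Real.smoothTransition.pos_denom (t + 1 / 2)).ne'
    rw [Real.smoothTransition, Real.smoothTransition, show 1 - (-t + 1 / 2) = t + 1 / 2 by ring,
      show -t + 1 / 2 = 1 - (t + 1 / 2) by ring, add_comm (expNegInvGlue (1 - _)),
      eq_sub_iff_add_eq, ← add_div, add_comm (expNegInvGlue (1 - _)), div_self this]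
  rw [S, S, h, mul_sub, mul_one, Real.sin_pi_div_two_sub, Real.cos_sq_add_sin_sq]

theorem lt_of_S {t : ℝ} (h : S t ≠ 0) : -1 / 2 < t := not_le.1 fun e => h (S_zero e)

/-- the sign of an end -/
abbrev sg (o : Bool) : ℝ := bif o then 1 else -1

theorem sg_sg (o : Bool) (t : ℝ) : sg o * (sg o * t) = t := by cases o <;> simp [sg]

theorem sg_le (o : Bool) (t : ℝ) : sg o * t ≤ |t| := by
  cases o <;> simp [sg, le_abs_self, neg_le_abs]

theorem sg_not (o : Bool) (t : ℝ) : sg (!o) * t = -(sg o * t) := by cases o <;> simp [sg]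

variable {κ lam : Type} [Fintype κ] [Fintype lam] {X : XD κ lam} {Z Z' Z₁ : Mf 4}
  {b : BG κ lam Z} {b' : BG κ lam Z'} {b₁ : BG κ lam Z₁} {O : Set Z.M} {O' : Set Z'.M}
  {O₁ : Set Z₁.M}

variable (X b) in
/-- an end with the height of the cut -/
structure Sd where
  a : b.A
  K : Nk X.D b.B b.G
  o : Bool
  s : ℝ
  e : b.E a = ⟨X, K, o⟩
  J : (En.mk X K o).ht (s - 1) ⊆ K.J

namespace Sd
variable (d : Sd X b)

/-- the end -/
abbrev E : En b.B b.G := ⟨X, d.K, d.o⟩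

/-- the height over the cut -/
def h (x : Z.M) : ℝ := sg d.o * d.K.tm x - d.s

theorem cont : Continuous d.h := (continuous_const.mul d.K.cont).sub continuous_const

theorem src {z : X.Y.M × ℝ} (hz : d.s - 1 < sg d.o * z.2) : z ∈ d.K.ψ.source :=
  d.K.mem_src.2 (d.J hz)

theorem h_ψ {z : X.Y.M × ℝ} (hz : d.s - 1 < sg d.o * z.2) :
    d.h (d.K.ψ z) = sg d.o * z.2 - d.s := by rw [h, d.K.tm_ψ _ (d.src hz)]

theorem tgt {x : Z.M} (hx : -1 < d.h x) : x ∈ d.K.ψ.target :=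
  d.K.tgt ▸ d.J (show d.s - 1 < sg d.o * d.K.tm x by rw [h] at hx; linarith)

theorem mem_U {s : ℝ} (hs : d.s - 1 ≤ s) {x : Z.M} : x ∈ d.E.U s ↔ s - d.s < d.h x := by
  refine ⟨?_, fun hx => ⟨d.K.ψ.symm x, ⟨trivial, ?_⟩, d.K.ψ.right_inv (d.tgt (by linarith))⟩⟩
  · rintro ⟨z, hz, rfl⟩
    have : s < sg d.o * z.2 := hz.2
    rw [d.h_ψ (by linarith)]; linarith
  · show s < sg d.o * (d.K.ψ.symm x).2
    rw [d.K.snd_symm (d.tgt (by linarith))]
    rw [h] at hx; linarith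

theorem mem_U' {x : Z.M} : x ∈ d.E.U (d.s - 1) ↔ -1 < d.h x := by
  rw [d.mem_U le_rfl, sub_sub_cancel_left]

theorem sm {F : ℝ → ℝ} (hF : ContDiff ℝ ∞ F) {c : ℝ} (h0 : ∀ t ≤ -1 / 2, F t = c) :
    Sm Z.I fun x => F (d.h x) := fun x => by
  by_cases hx : d.h x < -1 / 2
  · exact (contMDiffAt_const (c := c)).congr_of_eventuallyEq
      ((d.cont.continuousAt.eventually_lt_const hx).mono fun y hy => h0 _ hy.le)
  · have ht := d.tgt (x := x) (by linarith [not_lt.1 hx])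
    have k : ContMDiffAt Z.I 𝓘(ℝ, ℝ) ∞ d.K.tm x :=
      (contMDiffAt_snd.comp x (iso_smAt (iso_symm d.K.iso) ht)).congr_of_eventuallyEq
        ((d.K.ψ.open_target.eventually_mem ht).mono fun y hy => (d.K.snd_symm hy).symm)
    exact (hF.comp ((contDiff_const.mul contDiff_id).sub
      contDiff_const)).contDiffAt.comp_contMDiffAt k

include d in
theorem ok (hb : b.OK O) : X.OK := by have := hb.X d.a; rwa [d.e] at this

theorem sub (hb : b.OK O) {x : Z.M} (hx : -1 < d.h x) : x ∈ b.O := by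
  have := (d.ok hb).con
  obtain ⟨s, hs⟩ := hb.en
  have h1 := (hs d.a).2.1
  rw [d.e] at h1
  have c : IsPreconnected (d.E.U (d.s - 1)) :=
    (isPreconnected_univ.prod (convex_halfSpace_gt (f := fun t : ℝ => sg d.o * t)
      ⟨fun _ _ => by ring, fun _ _ => by simp only [smul_eq_mul]; ring⟩ _).isPreconnected).image _
      (d.K.ψ.continuousOn.mono fun z hz => d.src hz.2)
  obtain ⟨y⟩ : Nonempty X.Y.M := inferInstance
  have m : ∀ t ≤ max s d.s, (y, sg d.o * (max s d.s + 1)) ∈ univ ×ˢ d.E.ht t := fun t ht =>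
    ⟨trivial, show t < sg d.o * (sg d.o * _) by rw [sg_sg]; linarith⟩
  exact c.subset_isClopen hb.cl ⟨_, mem_image_of_mem _ (m _ (by linarith [le_max_right s d.s])),
    h1 (mem_image_of_mem _ (m _ (le_max_left _ _)))⟩ (d.mem_U'.2 hx)

theorem far (hb : b.OK O) {a : b.A} (ha : a ≠ d.a) :
    ∃ s, ∀ x ∈ (b.E a).U s, d.h x < -1 / 2 ∧ x ∈ b.O := by
  obtain ⟨s, hs⟩ := hb.en
  have hC : IsCompact (d.K.ψ '' univ ×ˢ ((sg d.o * ·) '' Icc (d.s - 1 / 2) s)) :=
    (isCompact_univ.prod (isCompact_Icc.image (by fun_prop))).image_of_continuousOn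
      (d.K.ψ.continuousOn.mono fun z ⟨_, t, ht, e⟩ => d.src (by
        rw [← e, sg_sg]; linarith [ht.1]))
  obtain ⟨C, h1⟩ := hC.exists_bound_of_continuousOn (b.E a).K.cont.continuousOn
  refine ⟨max s C, ?_⟩
  rintro _ ⟨z, hz, rfl⟩
  have h2 : max s C < sg (b.E a).out * z.2 := hz.2
  have h3 : z.2 ∈ (b.E a).ht s := (le_max_left _ _).trans_lt h2
  have h4 : (b.E a).K.ψ z ∈ (b.E a).U s := ⟨z, ⟨trivial, h3⟩, rfl⟩
  refine ⟨not_le.1 fun h5 => ?_, (hs a).2.1 h4⟩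
  obtain ⟨w, hw, e⟩ := d.mem_U'.2 (show -1 < d.h ((b.E a).K.ψ z) by linarith)
  have e' : d.K.ψ w = (b.E a).K.ψ z := e
  rw [← e', d.h_ψ hw.2] at h5
  by_cases h6 : sg d.o * w.2 ≤ s
  · have := h1 _ ⟨w, ⟨trivial, _, ⟨by linarith, h6⟩, sg_sg _ _⟩, e'⟩
    rw [(b.E a).K.tm_ψ _ ((b.E a).K.mem_src.2 ((hs a).1 h3)), Real.norm_eq_abs] at this
    linarith [sg_le (b.E a).out z.2, le_max_right s C]
  · refine disjoint_left.1 ((hs d.a).2.2 a ha) ?_ h4
    rw [d.e]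
    exact ⟨w, ⟨trivial, not_le.1 h6⟩, e'⟩

theorem mt_far (hb : b.OK O) {p : GP b₁ b} {a₁ : b₁.A} {a : b.A} (ha : a ≠ d.a) (m : p.Mt a₁ a) :
    ∃ s, ∀ x ∈ (b₁.E a₁).U s, x ∈ p.φ.source ∧ d.h (p.φ x) < -1 / 2 := by
  obtain ⟨s', h1⟩ := d.far hb ha
  obtain ⟨X', K, K', o, e1, e2, s, l, h2⟩ := m
  rw [e2] at h1
  rw [e1]
  refine ⟨max s (s' + |l|), ?_⟩
  rintro _ ⟨z, hz, rfl⟩
  have h3 : max s (s' + |l|) < sg o * z.2 := hz.2
  obtain ⟨h4, h5, -⟩ := h2 z ⟨trivial, (le_max_left _ _).trans_lt h3⟩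
  refine ⟨h4, (h1 _ ⟨(z.1, z.2 + l), ⟨trivial, show s' < sg o * (z.2 + l) from ?_⟩, h5.symm⟩).1⟩
  have := sg_le o (-l)
  rw [abs_neg] at this
  linarith [le_max_right s (s' + |l|)]

/-! ### the neck -/

/-- the neck as a part of the cylinder -/
def φ : OpenPartialHomeomorph Z.M (X.Y.M × ℝ) :=
  (d.K.ψ.symm.trans (tau X.Y.M (-(sg d.o * d.s))).toOpenPartialHomeomorph).restrOpen
    {x | -1 < d.h x} (isOpen_lt continuous_const d.cont)

theorem φ_app (x : Z.M) : d.φ x = ((d.K.ψ.symm x).1, (d.K.ψ.symm x).2 + -(sg d.o * d.s)) := rfl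

theorem mem_φ {x : Z.M} : x ∈ d.φ.source ↔ -1 < d.h x :=
  ⟨fun h => h.2, fun h => ⟨⟨d.tgt h, trivial⟩, h⟩⟩

theorem φ_ψ {z : X.Y.M × ℝ} (hz : d.s - 1 < sg d.o * z.2) :
    d.φ (d.K.ψ z) = (z.1, z.2 + -(sg d.o * d.s)) := by rw [φ_app, d.K.ψ.left_inv (d.src hz)]

theorem ψ_mem {z : X.Y.M × ℝ} (hz : d.s - 1 < sg d.o * z.2) : d.K.ψ z ∈ d.φ.source :=
  d.mem_φ.2 (by rw [d.h_ψ hz]; linarith)

theorem φ_snd {x : Z.M} (hx : x ∈ d.φ.source) : sg d.o * (d.φ x).2 = d.h x := by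
  rw [φ_app, d.K.snd_symm (d.tgt (d.mem_φ.1 hx)), mul_add, mul_neg, sg_sg]; rfl

theorem lit {V : Type} {u : Z.M → V} {u' : X.Y.M × ℝ → V}
    (h1 : ∀ z ∈ d.K.ψ.source, u (d.K.ψ z) = u' z) (h2 : ∀ y t t', u' (y, t) = u' (y, t'))
    {x : Z.M} (hx : x ∈ d.φ.source) : u x = u' (d.φ x) := by
  have k := d.tgt (d.mem_φ.1 hx)
  have := h1 _ (d.K.ψ.map_target k)
  rw [d.K.ψ.right_inv k] at this
  exact this.trans (h2 _ _ _)

/-- the patch of the neck -/
def gp (hb : b.OK O) : GP b X.bg where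
  φ := d.φ
  U x i j := X.D.B.P i j (d.φ x)
  v x := X.D.B.l (d.φ x)
  g := FRel.gEq (G := b.G) (G' := X.D.G) ((d.K.rel'.trans
      (fRel_of_iso (F := X.D.Z) (F' := X.D.Z) (iso_tau X.D.F.toPre (-(sg d.o * d.s))))
      (mapsTo_univ _ _)).mono d.φ.open_source fun _ hx => hx.1.1) hb.B (d.ok hb).ok.B hb.G
      (d.ok hb).ok.G (fun a _ => d.lit (d.K.a a) fun _ _ _ => by cases a <;> rfl)
      (fun a b c e _ => d.lit (d.K.o a b c e) fun _ _ _ => rfl)
      (fun _ => d.lit d.K.l fun _ _ _ => rfl) d.K.il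
  sub _ hx := d.sub hb (d.mem_φ.1 hx)
  sub' := subset_univ _

theorem mt (hb : b.OK O) : (d.gp hb).Mt d.a d.o :=
  ⟨X, d.K, X.D.nk, d.o, d.e, rfl, d.s - 1, -(sg d.o * d.s), fun z hz => ⟨d.ψ_mem hz.2, d.φ_ψ hz.2,
    funext fun i => funext fun j => by
      show X.D.B.P i j (d.φ _) = _
      rw [d.φ_ψ hz.2]; cases i <;> cases j <;> rfl, by
      show X.D.B.l (d.φ _) = _
      rw [d.φ_ψ hz.2]; rfl⟩⟩

theorem ce (hb : b.OK O) {c : C0 Z κ lam} {β : X.C} {w η} (hc : c.Adm b.B b.G)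
    (st : d.E.St c β w η (d.s - 1)) : (d.gp hb).Ce c (cy β) (fun x => w (d.K.ψ.symm x)) η := by
  have := scs (I := Z.I) (M := Z.M)
  have a := fun T => (admOn_univ.2 hc).mono (subset_univ T)
  obtain ⟨l, e⟩ := Glc56.st_eq0 (d.ok hb).ok d.K st.adm (isOpen_lt continuous_const (by fun_prop))
    st.sub (a _) st.eq
  have s : d.φ.source ⊆ d.E.U (d.s - 1) := fun x hx => d.mem_U'.2 (d.mem_φ.1 hx)
  have k := (Glc56.ep_iff hb.B d.φ.open_source (a _) (l.mono s)).1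
    (show Glc56.EP b.G.F c (Glc56.lim d.K β) _ _ η from ⟨e.iso.mono s, e.par.mono s, fun x hx =>
      (e.Φ x (s hx)).trans (Eqv71.map_cs (e.iso.J x (s hx)).symm _ _)⟩)
  have hP : ∀ i j, ∀ x ∈ d.φ.source, b.B.P i j x = X.D.B.P i j (d.φ x) := fun i j x =>
    d.lit (d.K.P i j) fun _ _ _ => by cases i <;> cases j <;> rfl
  have hl : ∀ x ∈ d.φ.source, b.B.l x = X.D.B.l (d.φ x) := fun x => d.lit d.K.l fun _ _ _ => rfl
  refine ⟨⟨k.m.su, k.m.uu, k.m.uu', k.m.J, fun x hx i => ?_, fun x hx t => ?_⟩, fun x hx i => ?_,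
    k.Φ, Subsingleton.elim _ _⟩
  · have := k.m.ρ x hx i
    simp only [hP _ _ x hx] at this
    exact this
  · have := k.m.j x hx t
    rw [hl x hx] at this
    exact this
  · have := k.W x hx i
    simp only [hP _ _ x hx] at this
    exact this

/-- the link from the end to the cylinder -/
def lnkN (hb : b.OK O) {c : C0 Z κ lam} {β : X.C} {w η} (hc : c.Adm b.B b.G)
    (st : d.E.St c β w η (d.s - 1)) {f : Bool} (hf : ∀ x ∈ d.E.U (d.s - 1), x ∈ O ↔ f = true) :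
    Lnk b X.bg O (spO f univ) c (cy β) where
  p := d.gp hb
  u x := w (d.K.ψ.symm x)
  ζ := η
  f x := S (d.h x)
  f' z := S (sg d.o * z.2)
  sp x hx := by rw [hf x (d.mem_U'.2 (d.mem_φ.1 hx))]; cases f <;> simp [spO]
  ce := d.ce hb hc st
  sm := d.sm S_sm fun _ => S_zero
  sm' := (S_sm.comp (contDiff_const.mul contDiff_id)).comp_contMDiff contMDiff_snd
  s := (closure_minimal (t := {x | -1 / 2 ≤ d.h x}) (fun _ hx => (lt_of_S hx).le)
    (isClosed_le continuous_const d.cont)).trans fun x hx =>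
      d.mem_φ.2 (by linarith [show -1 / 2 ≤ d.h x from hx])
  s' := (closure_minimal (t := {z : X.Y.M × ℝ | -1 / 2 ≤ sg d.o * z.2})
    (fun _ hx => (lt_of_S hx).le) (isClosed_le continuous_const (by fun_prop))).trans fun z hz => by
      have k : d.s - 1 < sg d.o * (z.1, z.2 + sg d.o * d.s).2 := by
        rw [mul_add, sg_sg]; linarith [show -1 / 2 ≤ sg d.o * z.2 from hz]
      have := d.φ.map_source (d.ψ_mem k)
      rwa [d.φ_ψ k, add_neg_cancel_right] at this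
  eq x hx := congrArg S (d.φ_snd hx).symm
  en a := by
    by_cases ha : a = d.a
    · subst ha
      refine ⟨d.s + 1, .inr ⟨fun x hx => S_one ?_, _, d.mt hb⟩⟩
      rw [d.e, d.mem_U (by linarith)] at hx
      linarith
    · exact (d.far hb ha).imp fun s h => .inl fun x hx => S_zero (h x hx).1.le
  en' o := by
    by_cases ho : o = d.o
    · subst ho
      refine ⟨1, .inr ⟨?_, _, d.mt hb⟩⟩
      rintro _ ⟨z, hz, rfl⟩
      exact S_one (by linarith [show 1 < sg d.o * z.2 from hz.2] : 1 / 2 ≤ sg d.o * z.2)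
    · obtain rfl := Bool.eq_not_of_ne ho
      refine ⟨1, .inl ?_⟩
      rintro _ ⟨z, hz, rfl⟩
      exact S_zero (by linarith [show 1 < sg (!d.o) * z.2 from hz.2, sg_not d.o z.2] :
        sg d.o * z.2 ≤ -1 / 2)

end Sd

/-! ### the body -/

/-- two patches which cover -/
structure Pr (d : Sd X b) (d' : Sd X b') (p : GP b₁ b) (p' : GP b₁ b') : Prop where
  cov : ∀ x ∈ b₁.O, x ∉ p.φ.source → x ∈ p'.φ.source
  tg : ∀ x ∈ b.O, d.h x < 1 → x ∈ p.φ.target
  lo : ∀ x ∈ p'.φ.source, -1 < d'.h (p'.φ x) → x ∈ p.φ.source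
  neg : ∀ x ∈ p.φ.source, x ∈ p'.φ.source → d.h (p.φ x) = -d'.h (p'.φ x)
  mt : ∀ a₁, (∃ a ≠ d.a, p.Mt a₁ a) ∨ ∃ a ≠ d'.a, p'.Mt a₁ a
  mt' : ∀ a ≠ d.a, ∃ a₁, p.Mt a₁ a

/-- the cut-off function of the body -/
def Sd.g (d : Sd X b) : Z.M → ℝ := b.O.indicator fun x => S (-d.h x)

theorem Sd.g_sm (d : Sd X b) (hb : b.OK O) : Sm Z.I d.g := fun x => by
  by_cases hx : x ∈ b.O
  · exact (d.sm (S_sm.comp contDiff_neg) (fun t ht => S_one (by linarith)) x).congr_of_eventuallyEq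
      ((hb.cl.2.eventually_mem hx).mono fun y hy => indicator_of_mem hy _)
  · exact contMDiffAt_const.congr_of_eventuallyEq
      ((hb.cl.1.isOpen_compl.eventually_mem hx).mono fun y hy => indicator_of_notMem hy _)

variable {d : Sd X b} {d' : Sd X b'} {p : GP b₁ b} {p' : GP b₁ b'}

theorem pull_g {x : Z₁.M} (hx : x ∈ p.φ.source) : pull p.φ d.g x = S (-d.h (p.φ x)) :=
  (pull_of_mem hx _).trans (indicator_of_mem (p.sub' (p.φ.map_source hx)) _)

theorem Pr.zero (h : Pr d d' p p') {x : Z₁.M} (hx : x ∈ p'.φ.source)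
    (h1 : d'.h (p'.φ x) < -1 / 2) : pull p.φ d.g x = 0 := by
  by_cases k : x ∈ p.φ.source
  · rw [pull_g k, h.neg x k hx, neg_neg, S_zero h1.le]
  · exact indicator_of_notMem k _

theorem Pr.ts (h : Pr d d' p p') (h₁ : b₁.OK O₁) : tsupport (pull p.φ d.g) ⊆ p.φ.source :=
  (closure_minimal (t := b₁.O \ (p'.φ.source ∩ p'.φ ⁻¹' {y | d'.h y < -1 / 2}))
    (fun x (hx : _ ≠ _) => ⟨p.sub (by_contra fun k => hx (pull_of_notMem k _)),
      fun k => hx (h.zero k.1 k.2)⟩)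
    (h₁.cl.1.sdiff (p'.φ.isOpen_inter_preimage (isOpen_lt d'.cont continuous_const)))).trans
    fun x hx => by_contra fun k => hx.2 ⟨h.cov x hx.1 k, show d'.h _ < -1 / 2 by
      linarith [not_lt.1 fun e => k (h.lo x (h.cov x hx.1 k) e)]⟩

/-- the link from the manifold to a part -/
def Pr.lnk (h : Pr d d' p p') (h₁ : b₁.OK O₁) (hb : b.OK O) (hb' : b'.OK O') (sp : p.Sp O₁ O)
    {c₁ : C0 Z₁ κ lam} {c : C0 Z κ lam} {u ζ} (ce : p.Ce c₁ c u ζ) : Lnk b₁ b O₁ O c₁ c where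
  p := p
  u := u
  ζ := ζ
  f := pull p.φ d.g
  f' := d.g
  sp := sp
  ce := ce
  sm x := by
    by_cases hx : x ∈ p.φ.source
    · exact ((d.g_sm hb _).comp x (p.g.sm.contMDiffAt
        (p.φ.open_source.mem_nhds hx))).congr_of_eventuallyEq (pull_eventuallyEq hx _)
    · exact contMDiffAt_const.congr_of_eventuallyEq
        (notMem_tsupport_iff_eventuallyEq.1 fun k => hx (h.ts h₁ k))
  sm' := d.g_sm hb
  s := h.ts h₁
  s' := (closure_minimal (t := b.O ∩ {x | d.h x ≤ 1 / 2}) (fun x (hx : d.g x ≠ 0) =>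
      have k : x ∈ b.O := by_contra fun k => hx (indicator_of_notMem k _)
      ⟨k, show d.h x ≤ 1 / 2 by
        linarith [lt_of_S fun e => hx ((indicator_of_mem k _).trans e)]⟩)
    (hb.cl.1.inter (isClosed_le d.cont continuous_const))).trans fun x hx =>
      h.tg x hx.1 (by linarith [show d.h x ≤ 1 / 2 from hx.2])
  eq x hx := pull_of_mem hx _
  en a₁ := by
    rcases h.mt a₁ with ⟨a, ha, m⟩ | ⟨a, ha, m⟩
    · exact (d.mt_far hb ha m).imp fun s k => .inr ⟨fun x hx =>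
        (pull_g (k x hx).1).trans (S_one (by linarith [(k x hx).2])), a, m⟩
    · exact (d'.mt_far hb' ha m).imp fun s k => .inl fun x hx => h.zero (k x hx).1 (k x hx).2
  en' a := by
    by_cases ha : a = d.a
    · subst ha
      refine ⟨d.s + 1, .inl fun x hx => ?_⟩
      rw [d.e, d.mem_U (by linarith)] at hx
      exact indicator_apply_eq_zero.2 fun _ => S_zero (by linarith)
    · exact (d.far hb ha).imp fun s k => .inr ⟨fun x hx =>
        (indicator_of_mem (k x hx).2 _).trans (S_one (by linarith [(k x hx).1])), h.mt' a ha⟩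

end Crest.Agent.X212.Ixc71
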